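import Vale.Agent.P252.Rigidity.General.Mass.Form
import Vale.Agent.P252.Rigidity.JCP

/-!
# Second derivatives for the maximum principle on balanced caps
-/

namespace Vale.Agent.P252.General.Volume

open scoped ContDiff Topology Matrix MatrixOrder
open Filter Finset Rigidity
open Three (AM logDet)
open Mass

noncomputable section

variable {n : ℕ} {V : Set (Fin n → ℝ)} {u : (Fin n → ℝ) → ℝ} {x₀ p : Fin n → ℝ} {h : ℝ}
  {y : Fin n → ℝ}

lemma am_mono {W : Set (Fin n → ℝ)} (hu : AM W u) (hV : IsOpen V) (hVW : V ⊆ W) : AM V u :=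
  ⟨hV, hu.sm.mono hVW, fun z hz => hu.pos z (hVW hz), fun z hz => hu.eq z (hVW hz)⟩

/-- A square root of the inverse Hessian. -/
lemma exists_root {G : Matrix (Fin n) (Fin n) ℝ} (hG : G.PosDef) :
    ∃ C : Matrix (Fin n) (Fin n) ℝ, G = Cᵀ * C ∧
      ∀ s r : Fin n → ℝ, s ⬝ᵥ (G *ᵥ r) = ∑ i, (C *ᵥ s) i * (C *ᵥ r) i := by
  obtain ⟨C, hC⟩ := CStarAlgebra.nonneg_iff_eq_star_mul_self.mp hG.posSemidef.nonneg
  have hC' : G = Cᵀ * C := by
    simpa [Matrix.star_eq_conjTranspose,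
      Matrix.conjTranspose_eq_transpose_of_trivial] using hC
  refine ⟨C, hC', fun s r => ?_⟩
  rw [hC', ← Matrix.mulVec_mulVec, Matrix.dotProduct_mulVec, Matrix.vecMul_transpose]
  rfl

variable (hu : AM V u)
include hu

lemma gdiv_congr (hy : y ∈ V) {F F' : (Fin n → ℝ) → Fin n → ℝ} (e : ∀ z ∈ V, F z = F' z) :
    gdiv u F y = gdiv u F' y := by
  refine sum_congr rfl fun i _ => sum_congr rfl fun j _ => ?_
  rw [pd_congr_on hu.isOpen hy (fun z hz => congrFun (e z hz) j)]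

lemma gdiv_sum (hy : y ∈ V) {ι : Type*} (s : Finset ι) {F : ι → (Fin n → ℝ) → Fin n → ℝ}
    (hF : ∀ k ∈ s, VSm V (F k)) :
    gdiv u (fun z => ∑ k ∈ s, F k z) y = ∑ k ∈ s, gdiv u (F k) y := by
  simp only [gdiv, Finset.sum_apply]
  rw [sum_comm (s := s)]
  refine sum_congr rfl fun i _ => ?_
  rw [sum_comm (s := s)]
  refine sum_congr rfl fun j _ => ?_
  rw [pd_sum (fun k hk => (hF k hk j).differentiableAt hu.isOpen hy), mul_sum]

/-- The maximum principle for `tr (G D²f)`. -/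
lemma max_principle (hy : y ∈ V) {f : (Fin n → ℝ) → ℝ} (hf : Sm V f) (hmax : IsLocalMax f y) :
    grd f y = 0 ∧ gdiv u (grd f) y ≤ 0 := by
  have hd := fun i => pd_of_isLocalMax hu.isOpen hf hy hmax i
  refine ⟨funext fun i => (hd i).1, ?_⟩
  obtain ⟨C, hC, -⟩ := exists_root (show (hinv u y).PosDef from (hu.pos y hy).inv)
  set B : Matrix (Fin n) (Fin n) ℝ := Cᵀ with hB
  have hy0 : affMap B y 0 ∈ V := by rwa [affMap_zero]
  have hm : IsLocalMax (pull B y f) 0 :=
    (show IsLocalMax f (affMap B y 0) by rwa [affMap_zero]).comp_continuous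
      (contDiff_affMap B y).continuous.continuousAt
  have h2 : ∀ i, hess (pull B y f) 0 i i ≤ 0 := fun i =>
    (pd_of_isLocalMax (isOpen_pull hu.isOpen) (sm_pull hf) hy0 hm i).2
  have e : gdiv u (grd f) y = (hess (pull B y f) 0).trace := by
    rw [hess_pull hu.isOpen hf hy0, affMap_zero, Matrix.trace_mul_cycle, hB,
      Matrix.transpose_transpose, ← hC]
    simp only [gdiv, grd, Matrix.trace, Matrix.diag, Matrix.mul_apply]
    refine sum_congr rfl fun i _ => sum_congr rfl fun j _ => ?_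
    show hinv u y i j * hess f y i j = _
    rw [show hess f y i j = hess f y j i from
      congrFun (congrFun (hess_symm hu.isOpen hf hy) j) i]
  rw [e]
  exact sum_nonpos fun i _ => h2 i

lemma grd_congr (hy : y ∈ V) {f g : (Fin n → ℝ) → ℝ} (e : ∀ z ∈ V, f z = g z) :
    grd f y = grd g y := funext fun i => pd_congr_on hu.isOpen hy e i

lemma grd_mul (hy : y ∈ V) {f g : (Fin n → ℝ) → ℝ} (hf : Sm V f) (hg : Sm V g) :
    grd (fun z => f z * g z) y = g y • grd f y + f y • grd g y := funext fun i => by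
  simp only [grd, Pi.add_apply, Pi.smul_apply, smul_eq_mul]
  rw [pd_mul (hf.differentiableAt hu.isOpen hy) (hg.differentiableAt hu.isOpen hy)]
  ring

lemma grd_const_mul (hy : y ∈ V) (c : ℝ) {f : (Fin n → ℝ) → ℝ} (hf : Sm V f) :
    grd (fun z => c * f z) y = c • grd f y := by
  rw [grd_mul hu hy (sm_const c) hf]
  funext i
  simp [grd, pd_const]

lemma grd_add (hy : y ∈ V) {f g : (Fin n → ℝ) → ℝ} (hf : Sm V f) (hg : Sm V g) :
    grd (fun z => f z + g z) y = grd f y + grd g y := funext fun i =>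
  pd_add (hf.differentiableAt hu.isOpen hy) (hg.differentiableAt hu.isOpen hy) i

lemma grd_sum (hy : y ∈ V) {ι : Type*} (s : Finset ι) {f : ι → (Fin n → ℝ) → ℝ}
    (hf : ∀ k ∈ s, Sm V (f k)) :
    grd (fun z => ∑ k ∈ s, f k z) y = ∑ k ∈ s, grd (f k) y := funext fun i => by
  rw [Finset.sum_apply]
  exact pd_sum (fun k hk => (hf k hk).differentiableAt hu.isOpen hy) i

lemma grd_log (hy : y ∈ V) {f : (Fin n → ℝ) → ℝ} (hf : Sm V f) (h0 : 0 < f y) :
    grd (fun z => Real.log (f z)) y = (f y)⁻¹ • grd f y := funext fun i => by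
  simp only [grd, pd, Pi.smul_apply, smul_eq_mul]
  rw [((hf.differentiableAt hu.isOpen hy).hasFDerivAt.log h0.ne').fderiv]
  rfl

lemma grd_inv (hy : y ∈ V) {f : (Fin n → ℝ) → ℝ} (hf : Sm V f) (h0 : ∀ z ∈ V, 0 < f z) :
    grd (fun z => (f z)⁻¹) y = (-((f y)⁻¹ ^ 2)) • grd f y := by
  have hi : Sm V fun z => (f z)⁻¹ := ContDiffOn.inv hf fun z hz => (h0 z hz).ne'
  have e := grd_congr hu hy (f := fun z => f z * (f z)⁻¹) (g := fun _ => 1)
    fun z hz => mul_inv_cancel₀ (h0 z hz).ne'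
  rw [grd_mul hu hy hf hi] at e
  funext i
  have e' := congrFun e i
  simp only [Pi.add_apply, Pi.smul_apply, smul_eq_mul, grd, pd_const] at e' ⊢
  have hne := (h0 y hy).ne'
  field_simp at e' ⊢
  linarith

lemma gdiv_smul' (hy : y ∈ V) {f : (Fin n → ℝ) → ℝ} {F : (Fin n → ℝ) → Fin n → ℝ}
    (hf : Sm V f) (hF : VSm V F) {d : Fin n → ℝ} {q : ℝ} (hd : grd f y = d)
    (hq : gdiv u F y = q) :
    gdiv u (fun z => f z • F z) y = d ⬝ᵥ (hinv u y *ᵥ F y) + f y * q := by
  rw [gdiv_smul hu hy hf hF, hd, hq]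

omit hu in
/-- `D²u m`. -/
def hessVec (u : (Fin n → ℝ) → ℝ) (m : Fin n → ℝ) (z : Fin n → ℝ) : Fin n → ℝ := hess u z *ᵥ m

lemma vsm_hessVec (m : Fin n → ℝ) : VSm V (hessVec u m) := fun i =>
  show Sm V fun z => ∑ k, hess u z i k * m k from
    sm_sum _ fun k _ => (hu.sm.hess hu.isOpen i k).mul (sm_const _)

lemma gdiv_hessVec (hy : y ∈ V) (m : Fin n → ℝ) :
    gdiv u (hessVec u m) y = grd (logDet u) y ⬝ᵥ m := by
  have e : hessPos u (y - m) = fun z => hessPos u y z + hessVec u m z := funext fun z => by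
    simp only [hessPos, hessVec, ← Matrix.mulVec_add]
    congr 1
    abel
  have h1 := gdiv_hessPos (x₀ := y - m) hu hy
  rw [e, gdiv_add hu hy (vsm_hessPos hu) (vsm_hessVec hu m), gdiv_hessPos hu hy] at h1
  simp only [sub_self, dotProduct_zero, sub_sub_cancel] at h1
  linarith

end

end Vale.Agent.P252.General.Volume
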