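import Vale.Agent.P252.Rigidity.General.Volume.Basic

/-!
# The interior maximum of `log det D²u + 4 log η - n log ψ + A F`

`F = ∑ kᵢ²/2`, `kᵢ = Dũ·mᵢ/(hψ)`. At an interior maximum, with `ρ = 1/(hψ)`,
`n/(n+2) · 1/(hη) + (A/2) ρ² ∑ mᵢ·D²u mᵢ ≤ K ρ`.
-/

namespace Vale.Agent.P252.General.Volume

open scoped ContDiff Topology Matrix
open Filter Finset Rigidity
open Three (AM logDet)
open Mass

noncomputable section

lemma pt_young {B2 Q R a X : ℝ} (hB0 : 0 < B2) (hRB : R ^ 2 ≤ B2 * Q) (ha : |a| ≤ 4) :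
    -(Q / 8) - 32 * B2 * X ^ 2 ≤ a * (X * R) := by
  have h1 : R ^ 2 / (8 * B2) ≤ Q / 8 := by
    rw [div_le_iff₀ (by positivity)]; linarith
  have e2 : (R / (4 * B2) + a * X) ^ 2 * (2 * B2) =
      R ^ 2 / (8 * B2) + 2 * B2 * (a * X) ^ 2 + a * (X * R) := by field_simp; ring
  have h0 : 0 ≤ (R / (4 * B2) + a * X) ^ 2 * (2 * B2) := by positivity
  have h3 : (a * X) ^ 2 ≤ 16 * X ^ 2 := by
    rw [mul_pow]
    exact mul_le_mul_of_nonneg_right (by nlinarith [abs_le.1 ha]) (sq_nonneg _)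
  have h4 := mul_le_mul_of_nonneg_left h3 (show 0 ≤ 2 * B2 by positivity)
  linarith

lemma pt_square {N e a : ℝ} (hN : N * e = 1 - 2 * e) (he : 0 < e) (ha0 : 0 ≤ a) (ha1 : a ≤ 1) :
    2 * (1 - 2 * e) ≤ N + 3 * a - e * (N + a) ^ 2 := by
  have h1 : e * (N + a) ^ 2 = (1 - 2 * e) * N + 2 * (1 - 2 * e) * a + e * a ^ 2 := by
    linear_combination (N + 2 * a) * hN
  have h2 : 0 ≤ a * (1 + 4 * e - e * a) :=
    mul_nonneg ha0 (by nlinarith [mul_le_mul_of_nonneg_left ha1 he.le])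
  linarith

lemma pt_final {e A B2 Q P S R c co : ℝ} (he : 0 < e) (he3 : e ≤ 1 / 3) (hA : 0 ≤ A)
    (hB0 : 0 < B2) (hAB : A * B2 = e / 256) (hQ : 0 ≤ Q) (hRB : R ^ 2 ≤ B2 * Q)
    (hec0 : 0 ≤ e * c) (hec1 : e * c ≤ 1) (hco : 2 * (1 - 2 * e) ≤ co) :
    (9 * (1 - 2 * e) + 4 * (1 - 2 * e) * c) * (P * S) + A / 2 * Q ≤
      4 * (4 * (1 - e) - 1) * P ^ 2 + co * S ^ 2 + 4 * (1 - 2 * e) * c * (P * S)
        + A * (Q - 4 * (1 - 2 * e) * (P * R) + (2 * e * c - 4) * (S * R) - e * A * R ^ 2) := by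
  have y1 := pt_young (a := -(4 * (1 - 2 * e))) (X := P) hB0 hRB
    (by rw [abs_neg, abs_le]; constructor <;> linarith)
  have y2 := pt_young (a := 2 * e * c - 4) (X := S) hB0 hRB
    (by rw [abs_le]; constructor <;> linarith)
  have y3 : e * A * R ^ 2 ≤ Q / 4 := by
    calc e * A * R ^ 2 ≤ e * A * (B2 * Q) := mul_le_mul_of_nonneg_left hRB (by positivity)
      _ = e * (A * B2) * Q := by ring
      _ = e * e * (Q / 256) := by rw [hAB]; ring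
      _ ≤ 1 * (Q / 256) := mul_le_mul_of_nonneg_right (by nlinarith) (by positivity)
      _ ≤ _ := by linarith
  have hb : A * (Q / 2 - 32 * B2 * P ^ 2 - 32 * B2 * S ^ 2) ≤
      A * (Q - 4 * (1 - 2 * e) * (P * R) + (2 * e * c - 4) * (S * R) - e * A * R ^ 2) :=
    mul_le_mul_of_nonneg_left (by linarith) hA
  have hb' : A * (Q / 2 - 32 * B2 * P ^ 2 - 32 * B2 * S ^ 2) =
      A / 2 * Q - e / 8 * P ^ 2 - e / 8 * S ^ 2 := by
    linear_combination (-32 * P ^ 2 - 32 * S ^ 2) * hAB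
  have hps : 9 * (P * S) ≤ 11 * P ^ 2 + 15 / 8 * S ^ 2 := by
    nlinarith [sq_nonneg (P - 9 / 22 * S), sq_nonneg S]
  have h1 := mul_le_mul_of_nonneg_left hps (show 0 ≤ 1 - 2 * e by linarith)
  have h2 := mul_le_mul_of_nonneg_right hco (sq_nonneg S)
  have h3 := mul_nonneg (show 0 ≤ 1 - 2 * e - e by linarith) (sq_nonneg S)
  have h4 := mul_nonneg (show 0 ≤ 1 + 47 / 8 * e by linarith) (sq_nonneg P)
  linarith

/-- The quadratic inequality at the maximum, in one coordinate. -/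
lemma point_ineq {N A B2 K2 Q R P S t c : ℝ} (hN : 1 ≤ N) (hB : 1 ≤ B2)
    (hA : A = 1 / (256 * (N + 2) * B2)) (hK : K2 ≤ B2) (hK0 : 0 ≤ K2) (hQ : 0 ≤ Q)
    (hR : R ^ 2 ≤ K2 * Q) (hc : c = N + A * K2) (ht : t = 4 * P + c * S - A * R) :
    (9 * N + 4 * N * c) / (N + 2) * (P * S) + A / 2 * Q ≤
      (N + 1) / (N + 2) * t ^ 2 - 4 * P ^ 2 + (N + 3 * A * K2) * S ^ 2 - c * (t * S)
        + A * (Q - 4 * (S * R) + t * R) := by
  subst ht
  obtain ⟨e, he⟩ : ∃ e : ℝ, e = 1 / (N + 2) := ⟨_, rfl⟩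
  have he0 : 0 < e := by rw [he]; positivity
  have hN2 : N * e = 1 - 2 * e := by rw [he]; field_simp; ring
  have hNe : (N + 1) / (N + 2) = 1 - e := by rw [he]; field_simp; ring
  have hB0 : 0 < B2 := by linarith
  have hA0 : 0 < A := by rw [hA]; positivity
  have hAB : A * B2 = e / 256 := by rw [hA, he]; field_simp
  have he3 : e ≤ 1 / 3 := by
    rw [he]; exact one_div_le_one_div_of_le (by norm_num) (by linarith)
  have hAK : A * K2 ≤ e / 256 := hAB ▸ mul_le_mul_of_nonneg_left hK hA0.le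
  have hAK0 : 0 ≤ A * K2 := mul_nonneg hA0.le hK0
  have hec : e * c = 1 - 2 * e + e * (A * K2) := by rw [hc]; linear_combination hN2
  have hea := mul_le_mul_of_nonneg_left (show A * K2 ≤ 1 by linarith) he0.le
  have hco : 2 * (1 - 2 * e) ≤ N + 3 * A * K2 - e * c ^ 2 := by
    rw [hc, mul_assoc 3]
    exact pt_square hN2 he0 hAK0 (by linarith)
  have fin := pt_final (P := P) (S := S) (c := c) he0 he3 hA0.le hB0 hAB hQ
    (hR.trans (mul_le_mul_of_nonneg_right hK hQ))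
    (by linarith [mul_nonneg he0.le hAK0]) (by linarith) hco
  have lhs : (9 * N + 4 * N * c) / (N + 2) = 9 * (1 - 2 * e) + 4 * (1 - 2 * e) * c := by
    rw [← hN2, he]; field_simp
  rw [lhs, hNe]
  refine fin.trans (le_of_eq ?_)
  ring

/-- The inequality at the maximum, for vectors in the metric `G`. -/
lemma max_alg {n : ℕ} (hn : 1 ≤ n) {G : Matrix (Fin n) (Fin n) ℝ} (hG : G.PosDef)
    {T g s : Fin n → ℝ} {r : Fin n → Fin n → ℝ} {k : Fin n → ℝ} {A B2 ρ1 ρ : ℝ}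
    (hB : 1 ≤ B2) (hA : A = 1 / (256 * ((n : ℝ) + 2) * B2)) (hk : ∑ i, k i * k i ≤ B2)
    (hρ1 : 0 ≤ ρ1) (hρ : 0 ≤ ρ)
    (hg : T + (-4 * ρ1) • g + ((-(n : ℝ) + -A * ∑ i, k i * k i) * ρ) • s
      + ∑ i, (A * k i * ρ) • r i = 0)
    (hle : ((n : ℝ) + 1) / ((n : ℝ) + 2) * (T ⬝ᵥ (G *ᵥ T)) - 4 * ρ1 ^ 2 * (g ⬝ᵥ (G *ᵥ g))
      - 4 * n * ρ1 + ((n : ℝ) + 3 * A * ∑ i, k i * k i) * ρ ^ 2 * (s ⬝ᵥ (G *ᵥ s))
      - ((n : ℝ) + A * ∑ i, k i * k i) * ρ * (T ⬝ᵥ (G *ᵥ s) + n)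
      + A * ∑ i, (ρ ^ 2 * (r i ⬝ᵥ (G *ᵥ r i)) - 4 * k i * ρ ^ 2 * (s ⬝ᵥ (G *ᵥ r i))
          + k i * ρ * (T ⬝ᵥ (G *ᵥ r i))) ≤ 0)
    (hgs : ρ1 * ρ * (g ⬝ᵥ (G *ᵥ s)) = ρ1 - ρ) :
    (n : ℝ) / ((n : ℝ) + 2) * ρ1 + A / 2 * ρ ^ 2 * ∑ i, r i ⬝ᵥ (G *ᵥ r i) ≤
      (9 + 5 * ((n : ℝ) + 1) * (n + 2)) * ρ := by
  obtain ⟨C, -, key⟩ := exists_root hG
  simp only [key] at hle hgs ⊢
  have hT : ∀ l, (C *ᵥ T) l = 4 * (ρ1 * (C *ᵥ g) l)
      + ((n : ℝ) + A * ∑ i, k i * k i) * (ρ * (C *ᵥ s) l)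
      - A * ∑ i, k i * (ρ * (C *ᵥ r i) l) := by
    intro l
    have h0 := congrFun (congrArg (fun v => C *ᵥ v) hg) l
    simp only [Matrix.mulVec_add, Matrix.mulVec_smul, Matrix.mulVec_sum, Matrix.mulVec_zero,
      Pi.add_apply, Pi.smul_apply, Finset.sum_apply, Pi.zero_apply, smul_eq_mul] at h0
    rw [show ∑ i, A * k i * ρ * (C *ᵥ r i) l = A * ∑ i, k i * (ρ * (C *ᵥ r i) l) by
      rw [mul_sum]; exact sum_congr rfl fun i _ => by ring] at h0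
    linarith
  obtain ⟨K2, hK2⟩ : ∃ K2 : ℝ, ∑ i, k i * k i = K2 := ⟨_, rfl⟩
  simp only [hK2] at hle hk hT
  have hK0 : 0 ≤ K2 := hK2 ▸ sum_nonneg fun i _ => mul_self_nonneg _
  set c : ℝ := (n : ℝ) + A * K2 with hc
  set θ : ℝ := ((n : ℝ) + 1) / ((n : ℝ) + 2) with hθ
  have hpt := sum_le_sum fun l (_ : l ∈ (univ : Finset (Fin n))) =>
    point_ineq (N := (n : ℝ)) (A := A) (B2 := B2) (K2 := K2)
      (Q := ∑ i, (ρ * (C *ᵥ r i) l) ^ 2) (R := ∑ i, k i * (ρ * (C *ᵥ r i) l))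
      (P := ρ1 * (C *ᵥ g) l) (S := ρ * (C *ᵥ s) l) (t := (C *ᵥ T) l) (c := c)
      (by exact_mod_cast hn) hB hA hk hK0 (sum_nonneg fun i _ => sq_nonneg _)
      ((sum_mul_sq_le_sq_mul_sq univ k fun i => ρ * (C *ᵥ r i) l).trans
        (le_of_eq (by rw [← hK2]; simp [sq])))
      hc (hT l)
  have hPS : ∑ l, ρ1 * (C *ᵥ g) l * (ρ * (C *ᵥ s) l) = ρ1 - ρ := by
    rw [← hgs, mul_sum]
    exact sum_congr rfl fun l _ => by ring
  have hQ : ∑ l, ∑ i, (ρ * (C *ᵥ r i) l) ^ 2 =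
      ρ ^ 2 * ∑ i, ∑ l, (C *ᵥ r i) l * (C *ᵥ r i) l := by
    rw [sum_comm, mul_sum]
    exact sum_congr rfl fun i _ => by
      rw [mul_sum]; exact sum_congr rfl fun l _ => by ring
  have main : ∑ l, (θ * (C *ᵥ T) l ^ 2 - 4 * (ρ1 * (C *ᵥ g) l) ^ 2
        + ((n : ℝ) + 3 * A * K2) * (ρ * (C *ᵥ s) l) ^ 2
        - c * ((C *ᵥ T) l * (ρ * (C *ᵥ s) l))
        + A * (∑ i, (ρ * (C *ᵥ r i) l) ^ 2
          - 4 * (ρ * (C *ᵥ s) l * ∑ i, k i * (ρ * (C *ᵥ r i) l))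
          + (C *ᵥ T) l * ∑ i, k i * (ρ * (C *ᵥ r i) l)))
      ≤ 4 * n * ρ1 + c * n * ρ := by
    have e : A * ∑ i, (ρ ^ 2 * (∑ l, (C *ᵥ r i) l * (C *ᵥ r i) l)
          - 4 * k i * ρ ^ 2 * (∑ l, (C *ᵥ s) l * (C *ᵥ r i) l)
          + k i * ρ * (∑ l, (C *ᵥ T) l * (C *ᵥ r i) l)) =
        ∑ l, A * (∑ i, (ρ * (C *ᵥ r i) l) ^ 2
          - 4 * (ρ * (C *ᵥ s) l * ∑ i, k i * (ρ * (C *ᵥ r i) l))
          + (C *ᵥ T) l * ∑ i, k i * (ρ * (C *ᵥ r i) l)) := by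
      simp only [mul_sum, ← sum_sub_distrib, ← sum_add_distrib]
      rw [sum_comm]
      exact sum_congr rfl fun l _ => sum_congr rfl fun i _ => by ring
    have e1 : ∀ (a : ℝ) (v : Fin n → ℝ) (w : ℝ),
        ∑ l, a * (w * v l) ^ 2 = a * w ^ 2 * ∑ l, v l * v l := fun a v w => by
      rw [mul_sum]; exact sum_congr rfl fun l _ => by ring
    have e2 : ∑ l, c * ((C *ᵥ T) l * (ρ * (C *ᵥ s) l)) =
        c * ρ * ∑ l, (C *ᵥ T) l * (C *ᵥ s) l := by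
      rw [mul_sum]; exact sum_congr rfl fun l _ => by ring
    have e3 : ∑ l, θ * (C *ᵥ T) l ^ 2 = θ * ∑ l, (C *ᵥ T) l * (C *ᵥ T) l := by
      rw [mul_sum]; exact sum_congr rfl fun l _ => by ring
    rw [sum_add_distrib, sum_sub_distrib, sum_add_distrib, sum_sub_distrib, ← e, e3, e1, e1, e2]
    linarith
  have hsum := hpt.trans main
  rw [sum_add_distrib, ← mul_sum, ← mul_sum, hPS, hQ] at hsum
  have hA0 : 0 < A := by rw [hA]; positivity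
  have hAK : A * K2 ≤ 1 := by
    calc A * K2 ≤ A * B2 := mul_le_mul_of_nonneg_left hk hA0.le
      _ = 1 / (256 * ((n : ℝ) + 2)) := by rw [hA]; field_simp
      _ ≤ 1 := by
          rw [div_le_one (by positivity)]
          linarith [show (0 : ℝ) ≤ n from Nat.cast_nonneg n]
  have hn0 : (0 : ℝ) ≤ n := Nat.cast_nonneg n
  have hAK0 : 0 ≤ A * K2 := mul_nonneg hA0.le hK0
  have c1 : (n : ℝ) / (n + 2) ≤ (9 * (n : ℝ) + 4 * n * c) / (n + 2) - 4 * n := by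
    rw [hc, le_sub_iff_add_le, le_div_iff₀ (by positivity), add_mul,
      div_mul_cancel₀ _ (by positivity)]
    have : 0 ≤ (n : ℝ) * (A * K2) := mul_nonneg hn0 hAK0
    linarith
  have c2 : (9 * (n : ℝ) + 4 * n * c) / (n + 2) + c * n ≤
      9 + 5 * ((n : ℝ) + 1) * (n + 2) := by
    have h1 : (n : ℝ) * (A * K2) ≤ n := by simpa using mul_le_mul_of_nonneg_left hAK hn0
    rw [hc, ← le_sub_iff_add_le, div_le_iff₀ (by positivity)]
    nlinarith [mul_le_mul_of_nonneg_left h1 hn0, pow_nonneg hn0 3]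
  linarith [mul_le_mul_of_nonneg_right c1 hρ1, mul_le_mul_of_nonneg_right c2 hρ]

variable {n : ℕ} {V : Set (Fin n → ℝ)} {u : (Fin n → ℝ) → ℝ}

/-- `1/(h f)`. -/
def rec' (h : ℝ) (f : (Fin n → ℝ) → ℝ) (z : Fin n → ℝ) : ℝ := (h * f z)⁻¹

variable (u) (x₀ p : Fin n → ℝ) (h : ℝ) (m : Fin n → Fin n → ℝ) (A : ℝ)

/-- `Dũ·mᵢ/(hψ)`. -/
def kF (i : Fin n) (z : Fin n → ℝ) : ℝ :=
  rec' h (psiF u x₀ p h) z * ∑ j, m i j * capGrad u x₀ p z j

/-- The test function. -/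
def testF (z : Fin n → ℝ) : ℝ :=
  logDet u z + 4 * Real.log (etaF u x₀ p h z) + (-(n : ℝ)) * Real.log (psiF u x₀ p h z)
    + A / 2 * ∑ i, kF u x₀ p h m i z * kF u x₀ p h m i z

variable {u} {x₀ p h m A} {y : Fin n → ℝ}

variable (hu : AM V u) (hh : 0 < h) (hη : ∀ z ∈ V, 0 < etaF u x₀ p h z)
  (hψ : ∀ z ∈ V, 0 < psiF u x₀ p h z)
include hu hh hη hψ

lemma sm_rec_eta : Sm V (rec' h (etaF u x₀ p h)) :=
  ContDiffOn.inv ((sm_const h).mul (sm_etaF hu)) fun z hz => (mul_pos hh (hη z hz)).ne'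

lemma sm_rec_psi : Sm V (rec' h (psiF u x₀ p h)) :=
  ContDiffOn.inv ((sm_const h).mul (sm_psiF hu)) fun z hz => (mul_pos hh (hψ z hz)).ne'

lemma sm_kF (i : Fin n) : Sm V (kF u x₀ p h m i) :=
  (sm_rec_psi hu hh hη hψ).mul (sm_sum _ fun j _ => (sm_const _).mul (sm_capGrad hu j))

lemma grd_rec_eta (hy : y ∈ V) : grd (rec' h (etaF u x₀ p h)) y =
    rec' h (etaF u x₀ p h) y ^ 2 • capGrad u x₀ p y := by
  rw [show rec' h (etaF u x₀ p h) = fun z => (h * etaF u x₀ p h z)⁻¹ from rfl,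
    grd_inv hu hy ((sm_const h).mul (sm_etaF hu)) fun z hz => mul_pos hh (hη z hz),
    grd_const_mul hu hy h (sm_etaF hu), grd_etaF hu hy]
  funext i
  simp only [Pi.smul_apply, smul_eq_mul]
  field_simp

lemma grd_rec_psi (hy : y ∈ V) : grd (rec' h (psiF u x₀ p h)) y =
    (-(rec' h (psiF u x₀ p h) y ^ 2)) • hessPos u x₀ y := by
  rw [show rec' h (psiF u x₀ p h) = fun z => (h * psiF u x₀ p h z)⁻¹ from rfl,
    grd_inv hu hy ((sm_const h).mul (sm_psiF hu)) fun z hz => mul_pos hh (hψ z hz),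
    grd_const_mul hu hy h (sm_psiF hu), grd_psiF hu hy]
  funext i
  simp only [Pi.smul_apply, smul_eq_mul]
  field_simp

lemma grd_kF (hy : y ∈ V) (i : Fin n) : grd (kF u x₀ p h m i) y =
    rec' h (psiF u x₀ p h) y • hessVec u (m i) y +
      (-(kF u x₀ p h m i y * rec' h (psiF u x₀ p h) y)) • hessPos u x₀ y := by
  have hg : grd (fun z => ∑ j, m i j * capGrad u x₀ p z j) y = hessVec u (m i) y := by
    rw [grd_sum hu hy (f := fun j z => m i j * capGrad u x₀ p z j) univ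
      fun j _ => (sm_const _).mul (sm_capGrad hu j)]
    funext a
    rw [Finset.sum_apply]
    refine sum_congr rfl fun j _ => ?_
    rw [grd_const_mul hu hy (m i j) (sm_capGrad hu j)]
    show m i j * pd a (fun z => capGrad u x₀ p z j) y = hess u y a j * m i j
    rw [pd_capGrad hu hy, mul_comm]
  rw [show kF u x₀ p h m i = fun z =>
      rec' h (psiF u x₀ p h) z * ∑ j, m i j * capGrad u x₀ p z j from rfl,
    grd_mul hu hy (sm_rec_psi hu hh hη hψ)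
      (sm_sum _ fun j _ => (sm_const _).mul (sm_capGrad hu j)), hg, grd_rec_psi hu hh hη hψ hy]
  funext a
  simp only [Pi.add_apply, Pi.smul_apply, smul_eq_mul]
  ring

omit hu hh hη hψ in
/-- The coefficient of `D²u (y - x₀)`. -/
def posCoef (u : (Fin n → ℝ) → ℝ) (x₀ p : Fin n → ℝ) (h : ℝ) (m : Fin n → Fin n → ℝ) (A : ℝ)
    (z : Fin n → ℝ) : ℝ :=
  (-(n : ℝ) + -A * ∑ i, kF u x₀ p h m i z * kF u x₀ p h m i z) * rec' h (psiF u x₀ p h) z

omit hu hh hη hψ in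
/-- The coefficient of `D²u mᵢ`. -/
def vecCoef (u : (Fin n → ℝ) → ℝ) (x₀ p : Fin n → ℝ) (h : ℝ) (m : Fin n → Fin n → ℝ) (A : ℝ)
    (i : Fin n) (z : Fin n → ℝ) : ℝ := A * kF u x₀ p h m i z * rec' h (psiF u x₀ p h) z

omit hu hh hη hψ in
/-- The gradient of the test function. -/
def testG (u : (Fin n → ℝ) → ℝ) (x₀ p : Fin n → ℝ) (h : ℝ) (m : Fin n → Fin n → ℝ) (A : ℝ)
    (z : Fin n → ℝ) : Fin n → ℝ :=
  grd (logDet u) z + (-4 * rec' h (etaF u x₀ p h) z) • capGrad u x₀ p z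
    + posCoef u x₀ p h m A z • hessPos u x₀ z
    + ∑ i, vecCoef u x₀ p h m A i z • hessVec u (m i) z

lemma sm_posCoef : Sm V (posCoef u x₀ p h m A) :=
  ((sm_const _).add ((sm_const _).mul (sm_sum _ fun i _ =>
    (sm_kF hu hh hη hψ i).mul (sm_kF hu hh hη hψ i)))).mul (sm_rec_psi hu hh hη hψ)

lemma sm_vecCoef (i : Fin n) : Sm V (vecCoef u x₀ p h m A i) :=
  ((sm_const _).mul (sm_kF hu hh hη hψ i)).mul (sm_rec_psi hu hh hη hψ)

lemma sm_testF : Sm V (testF u x₀ p h m A) :=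
  ((hu.sm_logDet.add ((sm_const 4).mul (ContDiffOn.log (sm_etaF hu) fun z hz => (hη z hz).ne'))).add
    ((sm_const _).mul (ContDiffOn.log (sm_psiF hu) fun z hz => (hψ z hz).ne'))).add
    ((sm_const _).mul (sm_sum _ fun i _ => (sm_kF hu hh hη hψ i).mul (sm_kF hu hh hη hψ i)))

lemma grd_testF (hy : y ∈ V) : grd (testF u x₀ p h m A) y = testG u x₀ p h m A y := by
  have hL := hu.sm_logDet
  have hlη : Sm V fun z => Real.log (etaF u x₀ p h z) :=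
    ContDiffOn.log (sm_etaF hu) fun z hz => (hη z hz).ne'
  have hlψ : Sm V fun z => Real.log (psiF u x₀ p h z) :=
    ContDiffOn.log (sm_psiF hu) fun z hz => (hψ z hz).ne'
  have hk := fun i => sm_kF (m := m) hu hh hη hψ i
  have hkk : Sm V fun z => ∑ i, kF u x₀ p h m i z * kF u x₀ p h m i z :=
    sm_sum _ fun i _ => (hk i).mul (hk i)
  rw [show testF u x₀ p h m A = fun z => logDet u z + 4 * Real.log (etaF u x₀ p h z) +
      (-(n : ℝ)) * Real.log (psiF u x₀ p h z) +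
      A / 2 * ∑ i, kF u x₀ p h m i z * kF u x₀ p h m i z from rfl,
    grd_add hu hy ((hL.add ((sm_const 4).mul hlη)).add ((sm_const _).mul hlψ))
      ((sm_const _).mul hkk),
    grd_add hu hy (hL.add ((sm_const 4).mul hlη)) ((sm_const _).mul hlψ),
    grd_add hu hy hL ((sm_const 4).mul hlη), grd_const_mul hu hy 4 hlη,
    grd_const_mul hu hy _ hlψ, grd_const_mul hu hy _ hkk,
    grd_sum hu hy (f := fun i z => kF u x₀ p h m i z * kF u x₀ p h m i z) univ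
      fun i _ => (hk i).mul (hk i),
    grd_log hu hy (sm_etaF hu) (hη y hy), grd_log hu hy (sm_psiF hu) (hψ y hy),
    grd_etaF hu hy, grd_psiF hu hy]
  simp only [grd_mul hu hy (hk _) (hk _), grd_kF hu hh hη hψ hy]
  funext a
  simp only [testG, posCoef, vecCoef, rec', Pi.add_apply, Pi.smul_apply, Finset.sum_apply,
    smul_eq_mul, mul_inv]
  simp only [mul_add, sum_add_distrib, Finset.sum_mul, Finset.mul_sum, add_mul]
  have e1 : ∀ i, A / 2 * (kF u x₀ p h m i y * (h⁻¹ * (psiF u x₀ p h y)⁻¹ * hessVec u (m i) y a))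
      + A / 2 * (kF u x₀ p h m i y * (h⁻¹ * (psiF u x₀ p h y)⁻¹ * hessVec u (m i) y a)) =
      A * kF u x₀ p h m i y * (h⁻¹ * (psiF u x₀ p h y)⁻¹) * hessVec u (m i) y a := fun i => by ring
  rw [← sum_congr rfl fun i _ => e1 i, sum_add_distrib]
  have e2 : ∀ i, -A * (kF u x₀ p h m i y * kF u x₀ p h m i y) * (h⁻¹ * (psiF u x₀ p h y)⁻¹) *
        hessPos u x₀ y a =
      A / 2 * (kF u x₀ p h m i y * (-(kF u x₀ p h m i y * (h⁻¹ * (psiF u x₀ p h y)⁻¹)) *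
        hessPos u x₀ y a)) + A / 2 * (kF u x₀ p h m i y *
        (-(kF u x₀ p h m i y * (h⁻¹ * (psiF u x₀ p h y)⁻¹)) * hessPos u x₀ y a)) :=
    fun i => by ring
  rw [sum_congr rfl fun i _ => e2 i, sum_add_distrib]
  ring

lemma grd_posCoef (hy : y ∈ V) : grd (posCoef u x₀ p h m A) y =
    (((n : ℝ) + 3 * A * ∑ i, kF u x₀ p h m i y * kF u x₀ p h m i y) *
        rec' h (psiF u x₀ p h) y ^ 2) • hessPos u x₀ y +
      (-2 * A * rec' h (psiF u x₀ p h) y ^ 2) •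
        ∑ i, kF u x₀ p h m i y • hessVec u (m i) y := by
  have hk := fun i => sm_kF (m := m) hu hh hη hψ i
  have hkk : Sm V fun z => ∑ i, kF u x₀ p h m i z * kF u x₀ p h m i z :=
    sm_sum _ fun i _ => (hk i).mul (hk i)
  rw [show posCoef u x₀ p h m A = fun z => (-(n : ℝ) + -A * ∑ i,
      kF u x₀ p h m i z * kF u x₀ p h m i z) * rec' h (psiF u x₀ p h) z from rfl,
    grd_mul hu hy ((sm_const _).add ((sm_const _).mul hkk)) (sm_rec_psi hu hh hη hψ),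
    grd_add hu hy (sm_const _) ((sm_const _).mul hkk), grd_const_mul hu hy _ hkk,
    grd_sum hu hy (f := fun i z => kF u x₀ p h m i z * kF u x₀ p h m i z) univ
      fun i _ => (hk i).mul (hk i),
    show grd (fun _ : Fin n → ℝ => -(n : ℝ)) y = 0 from funext fun i => pd_const _ i, zero_add,
    grd_rec_psi hu hh hη hψ hy]
  simp only [grd_mul hu hy (hk _) (hk _), grd_kF hu hh hη hψ hy]
  funext a
  simp only [Pi.add_apply, Pi.smul_apply, Finset.sum_apply, smul_eq_mul]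
  generalize rec' h (psiF u x₀ p h) y = ρ
  have e : ∀ (k : Fin n → ℝ) (v : Fin n → ℝ) (w : ℝ),
      ∑ i, (k i * (ρ * v i + -(k i * ρ) * w) + k i * (ρ * v i + -(k i * ρ) * w)) =
        2 * ρ * ∑ i, k i * v i - 2 * ρ * w * ∑ i, k i * k i := fun k v w => by
    simp only [mul_sum, ← sum_sub_distrib]
    exact sum_congr rfl fun i _ => by ring
  rw [e]
  ring

lemma grd_vecCoef (hy : y ∈ V) (i : Fin n) : grd (vecCoef u x₀ p h m A i) y =
    (A * rec' h (psiF u x₀ p h) y ^ 2) • hessVec u (m i) y +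
      (-2 * A * kF u x₀ p h m i y * rec' h (psiF u x₀ p h) y ^ 2) • hessPos u x₀ y := by
  rw [show vecCoef u x₀ p h m A i = fun z =>
      A * kF u x₀ p h m i z * rec' h (psiF u x₀ p h) z from rfl,
    grd_mul hu hy ((sm_const A).mul (sm_kF hu hh hη hψ i)) (sm_rec_psi hu hh hη hψ),
    grd_const_mul hu hy A (sm_kF hu hh hη hψ i), grd_kF hu hh hη hψ hy,
    grd_rec_psi hu hh hη hψ hy]
  funext a
  simp only [Pi.add_apply, Pi.smul_apply, smul_eq_mul]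
  ring

lemma gdiv_testG (hy : y ∈ V) :
    let T := grd (logDet u) y
    let G := hinv u y
    let g := capGrad u x₀ p y
    let s := hessPos u x₀ y
    let r := fun i => hessVec u (m i) y
    let k := fun i => kF u x₀ p h m i y
    let ρ1 := rec' h (etaF u x₀ p h) y
    let ρ := rec' h (psiF u x₀ p h) y
    gdiv u (testG u x₀ p h m A) y =
      ((n : ℝ) + 1) / ((n : ℝ) + 2) * (T ⬝ᵥ (G *ᵥ T)) - 4 * ρ1 ^ 2 * (g ⬝ᵥ (G *ᵥ g))
      - 4 * n * ρ1 + ((n : ℝ) + 3 * A * ∑ i, k i * k i) * ρ ^ 2 * (s ⬝ᵥ (G *ᵥ s))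
      - ((n : ℝ) + A * ∑ i, k i * k i) * ρ * (T ⬝ᵥ (G *ᵥ s) + n)
      + A * ∑ i, (ρ ^ 2 * (r i ⬝ᵥ (G *ᵥ r i)) - 4 * k i * ρ ^ 2 * (s ⬝ᵥ (G *ᵥ r i))
          + k i * ρ * (T ⬝ᵥ (G *ᵥ r i))) := by
  intro T G g s r k ρ1 ρ
  have h1 : Sm V fun z => -4 * rec' h (etaF u x₀ p h) z :=
    (sm_const _).mul (sm_rec_eta hu hh hη hψ)
  have v1 : VSm V fun z => (-4 * rec' h (etaF u x₀ p h) z) • capGrad u x₀ p z :=
    fun i => h1.mul (vsm_capGrad hu i)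
  have v2 : VSm V fun z => posCoef u x₀ p h m A z • hessPos u x₀ z :=
    fun i => (sm_posCoef hu hh hη hψ).mul (vsm_hessPos hu i)
  have v3 : ∀ k, VSm V fun z => vecCoef u x₀ p h m A k z • hessVec u (m k) z :=
    fun k i => (sm_vecCoef hu hh hη hψ k).mul (vsm_hessVec hu (m k) i)
  have v01 : VSm V fun z =>
      grd (logDet u) z + (-4 * rec' h (etaF u x₀ p h) z) • capGrad u x₀ p z :=
    fun i => (vsm_tau hu i).add (v1 i)
  have v012 : VSm V fun z =>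
      grd (logDet u) z + (-4 * rec' h (etaF u x₀ p h) z) • capGrad u x₀ p z
        + posCoef u x₀ p h m A z • hessPos u x₀ z :=
    fun i => (v01 i).add (v2 i)
  have v4 : VSm V fun z => ∑ i, vecCoef u x₀ p h m A i z • hessVec u (m i) z := fun i => by
    simpa [Finset.sum_apply] using sm_sum univ fun k _ => v3 k i
  have a1 := gdiv_add hu hy v012 v4
  have a2 := gdiv_add hu hy v01 v2
  have a3 := gdiv_add hu hy (vsm_tau hu) v1
  have hGH : ∀ v, hinv u y *ᵥ (hess u y *ᵥ v) = v := fun v => by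
    rw [Matrix.mulVec_mulVec, hinv_mul_hess hu hy, Matrix.one_mulVec]
  have eTx : grd (logDet u) y ⬝ᵥ (y - x₀) = T ⬝ᵥ (G *ᵥ s) := by
    simp only [T, G, s, hessPos, hGH]
  have eTm : ∀ i, grd (logDet u) y ⬝ᵥ m i = T ⬝ᵥ (G *ᵥ r i) := fun i => by
    simp only [T, G, r, hessVec, hGH]
  have ec : ∀ i, r i ⬝ᵥ (G *ᵥ s) = s ⬝ᵥ (G *ᵥ r i) := fun i => dot_hinv_comm hu hy _ _
  have b1 : gdiv u (fun z => (-4 * rec' h (etaF u x₀ p h) z) • capGrad u x₀ p z) y =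
      -4 * ρ1 ^ 2 * (g ⬝ᵥ (G *ᵥ g)) + -4 * ρ1 * n := by
    rw [gdiv_smul' hu hy h1 (vsm_capGrad hu)
      (by rw [grd_const_mul hu hy _ (sm_rec_eta hu hh hη hψ), grd_rec_eta hu hh hη hψ hy])
      (gdiv_capGrad hu hy), smul_smul, smul_dotProduct, smul_eq_mul]
  have b2 : gdiv u (fun z => posCoef u x₀ p h m A z • hessPos u x₀ z) y =
      ((n : ℝ) + 3 * A * ∑ i, k i * k i) * ρ ^ 2 * (s ⬝ᵥ (G *ᵥ s))
        + -2 * A * ρ ^ 2 * ∑ i, k i * (s ⬝ᵥ (G *ᵥ r i))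
        + (-(n : ℝ) + -A * ∑ i, k i * k i) * ρ * (T ⬝ᵥ (G *ᵥ s) + n) := by
    rw [gdiv_smul' hu hy (sm_posCoef hu hh hη hψ) (vsm_hessPos hu)
      (grd_posCoef hu hh hη hψ hy) (gdiv_hessPos hu hy)]
    simp only [add_dotProduct, smul_dotProduct, sum_dotProduct, smul_eq_mul, eTx, posCoef,
      show ∀ i, hessVec u (m i) y ⬝ᵥ (hinv u y *ᵥ hessPos u x₀ y) = s ⬝ᵥ (G *ᵥ r i) from ec]
    rfl
  have b3 : ∀ i, gdiv u (fun z => vecCoef u x₀ p h m A i z • hessVec u (m i) z) y =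
      A * ρ ^ 2 * (r i ⬝ᵥ (G *ᵥ r i)) + -2 * A * k i * ρ ^ 2 * (s ⬝ᵥ (G *ᵥ r i))
        + A * k i * ρ * (T ⬝ᵥ (G *ᵥ r i)) := fun i => by
    rw [gdiv_smul' hu hy (sm_vecCoef hu hh hη hψ i) (vsm_hessVec hu (m i))
      (grd_vecCoef hu hh hη hψ hy i) (gdiv_hessVec hu hy (m i))]
    simp only [add_dotProduct, smul_dotProduct, smul_eq_mul, eTm, vecCoef]
    rfl
  rw [show testG u x₀ p h m A = fun z =>
      grd (logDet u) z + (-4 * rec' h (etaF u x₀ p h) z) • capGrad u x₀ p z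
        + posCoef u x₀ p h m A z • hessPos u x₀ z
        + ∑ i, vecCoef u x₀ p h m A i z • hessVec u (m i) z from rfl,
    a1, a2, a3, gdiv_tau hu hy, b1, b2, gdiv_sum hu hy univ (fun k _ => v3 k)]
  simp only [b3]
  have e : A * ∑ i, (ρ ^ 2 * (r i ⬝ᵥ (G *ᵥ r i)) - 4 * k i * ρ ^ 2 * (s ⬝ᵥ (G *ᵥ r i))
          + k i * ρ * (T ⬝ᵥ (G *ᵥ r i))) =
      ∑ i, (A * ρ ^ 2 * (r i ⬝ᵥ (G *ᵥ r i)) + -2 * A * k i * ρ ^ 2 * (s ⬝ᵥ (G *ᵥ r i))
        + A * k i * ρ * (T ⬝ᵥ (G *ᵥ r i)))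
        + -2 * A * ρ ^ 2 * ∑ i, k i * (s ⬝ᵥ (G *ᵥ r i)) := by
    simp only [mul_sum, ← sum_add_distrib]
    exact sum_congr rfl fun i _ => by ring
  rw [e]
  simp only [T, G]
  ring

/-- The inequality at an interior maximum. -/
theorem max_point_ineq (hn : 1 ≤ n) {B2 : ℝ} (hB : 1 ≤ B2)
    (hA : A = 1 / (256 * ((n : ℝ) + 2) * B2)) (hy : y ∈ V)
    (hk : ∑ i, kF u x₀ p h m i y * kF u x₀ p h m i y ≤ B2)
    (hmax : IsLocalMax (testF u x₀ p h m A) y) :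
    (n : ℝ) / ((n : ℝ) + 2) * rec' h (etaF u x₀ p h) y +
        A / 2 * rec' h (psiF u x₀ p h) y ^ 2 * (∑ i, m i ⬝ᵥ hessVec u (m i) y) ≤
      (9 + 5 * ((n : ℝ) + 1) * (n + 2)) * rec' h (psiF u x₀ p h) y := by
  obtain ⟨hg, hle⟩ := max_principle hu hy (sm_testF hu hh hη hψ) hmax
  rw [gdiv_congr hu hy (F' := testG u x₀ p h m A) fun z hz => grd_testF hu hh hη hψ hz,
    gdiv_testG hu hh hη hψ hy] at hle
  rw [grd_testF hu hh hη hψ hy] at hg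
  have eQ : ∀ i, m i ⬝ᵥ hessVec u (m i) y =
      hessVec u (m i) y ⬝ᵥ (hinv u y *ᵥ hessVec u (m i) y) := fun i => by
    rw [dotProduct_comm, hessVec, Matrix.mulVec_mulVec _ (hinv u y), hinv_mul_hess hu hy,
      Matrix.one_mulVec]
  simp only [eQ]
  have h1 := (mul_pos hh (hη y hy))
  have h2 := (mul_pos hh (hψ y hy))
  refine max_alg hn (show (hinv u y).PosDef from (hu.pos y hy).inv) hB hA hk
    (inv_pos.2 h1).le (inv_pos.2 h2).le hg hle ?_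
  rw [capGrad_dot_hessPos hu hy hh]
  simp only [rec']
  have := (hη y hy).ne'
  have := (hψ y hy).ne'
  field_simp

end

end Vale.Agent.P252.General.Volume
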